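import Vale.Agent.P286EA.Obj

/-!
# Lemmas for the category of test objects
-/

set_option linter.all false

namespace Vale.Agent.P286E

open Matrix Vale.Agent.P286

noncomputable section

attribute [-instance] HahnSeries.powerSeriesAlgebra

variable {A B D : Type} [CommRing A] [Algebra ℂ A] [CommRing B] [Algebra ℂ B] [CommRing D]
  [Algebra ℂ D] {E : EC}

@[simp] theorem lm_coeff (f : A →ₐ[ℂ] B) (z : Ls A) (n : ℤ) : (lm f z).coeff n = f (z.coeff n) := rfl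

/-- Base change as a homomorphism of rings. -/
def lmH (f : A →ₐ[ℂ] B) : Ls A →+* Ls B where
  toFun := lm f
  map_one' := HahnSeries.map_one (f : A →*₀ B)
  map_mul' _ _ := HahnSeries.map_mul ((f : A →+* B) : A →ₙ+* B)
  map_zero' := by ext; simp
  map_add' _ _ := by ext; simp

theorem lmH_apply (f : A →ₐ[ℂ] B) (z : Ls A) : lmH f z = lm f z := rfl

theorem lm_eq (f : A →ₐ[ℂ] B) : lm f = lmH f := rfl

theorem lm_id (z : Ls A) : lm (AlgHom.id ℂ A) z = z := rfl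

theorem lm_lm (f : A →ₐ[ℂ] B) (g : B →ₐ[ℂ] D) (z : Ls A) : lm g (lm f z) = lm (g.comp f) z := rfl

theorem lm_of (f : A →ₐ[ℂ] B) (z : Ls ℂ) :
    lm f (lm (Algebra.ofId ℂ A) z) = lm (Algebra.ofId ℂ B) z := by
  ext n
  simp [Algebra.ofId_apply]

theorem lm_self (z : Ls ℂ) : lm (Algebra.ofId ℂ ℂ) z = z := rfl

theorem lm_C (f : A →ₐ[ℂ] B) (a : A) : lm f (HahnSeries.C a) = HahnSeries.C (f a) := by
  ext n
  by_cases h : n = 0 <;> simp [HahnSeries.coeff_single, h]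

theorem lm_tp (f : A →ₐ[ℂ] B) (n : ℤ) : lm f (tp A n) = tp B n := by
  ext k
  by_cases h : k = n <;> simp [tp, HahnSeries.coeff_single, h]

theorem lm_smul (f : A →ₐ[ℂ] B) (a : A) (z : Ls A) : lm f (a • z) = f a • lm f z := by
  ext n
  simp

theorem C_mul (a : A) (z : Ls A) : HahnSeries.C a * z = a • z := HahnSeries.C_mul_eq_smul

theorem lm_R (f : A →ₐ[ℂ] B) {z : Ls A} (h : z ∈ E.R A) : lm f z ∈ E.R B := by
  refine (Subring.closure_le (t := (E.R B).comap (lmH f))).2 ?_ h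
  rintro _ (⟨a, rfl⟩ | rfl | rfl)
  · exact Subring.subset_closure (Or.inl ⟨_, (lm_C f a).symm⟩)
  · exact Subring.subset_closure (Or.inr (Or.inl (lm_tp f _)))
  · exact Subring.subset_closure (Or.inr (Or.inr (lm_of f _)))

theorem C_R (a : A) : HahnSeries.C a ∈ E.R A := Subring.subset_closure (Or.inl ⟨a, rfl⟩)

theorem smul_R (a : A) {z : Ls A} (h : z ∈ E.R A) : a • z ∈ E.R A := C_mul a z ▸ mul_mem (C_R a) h

theorem IsO.lm (f : A →ₐ[ℂ] B) {z : Ls A} (h : IsO z) : IsO (lm f z) := fun n hn => by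
  rw [lm_coeff, h n hn, map_zero]

theorem IsO.add {z w : Ls A} (h : IsO z) (h' : IsO w) : IsO (z + w) := fun n hn => by
  rw [HahnSeries.coeff_add, h n hn, h' n hn, add_zero]

theorem IsO.mul {z w : Ls A} (h : IsO z) (h' : IsO w) : IsO (z * w) := fun n hn => by
  rw [HahnSeries.coeff_mul]
  refine Finset.sum_eq_zero fun p hp => ?_
  have := (Finset.mem_addAntidiagonal.1 hp).2.2
  by_cases h1 : p.1 < 0
  · rw [h _ h1, zero_mul]
  · rw [h' _ (by omega), mul_zero]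

theorem isO_C (a : A) : IsO (HahnSeries.C a : Ls A) := fun n hn => by
  simp [HahnSeries.coeff_single, hn.ne]

theorem isO_one : IsO (1 : Ls A) := by simpa using isO_C (1 : A)

theorem isO_zero : IsO (0 : Ls A) := fun _ _ => rfl

/-- The lattice as a submodule. -/
def IsLat.sub {k : ℕ} {P : Set (Fin 2 → Ls A)} (h : IsLat E k P) : Submodule (E.R A) (Fin 2 → Ls A) where
  carrier := P
  add_mem' := fun {p q} hp hq => by
    obtain ⟨⟨n, g, h, -, -, e⟩, -⟩ := h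
    exact (e _).2 fun i => by
      rw [mulVec_add]
      exact add_mem ((e p).1 hp i) ((e q).1 hq i)
  zero_mem' := by
    obtain ⟨⟨n, g, h, -, -, e⟩, -⟩ := h
    exact (e _).2 fun i => by
      rw [mulVec_zero]
      exact zero_mem _
  smul_mem' := fun r p hp => by
    obtain ⟨⟨n, g, h, -, -, e⟩, -⟩ := h
    exact (e _).2 fun i => by
      rw [show r • p = (r : Ls A) • p from rfl, mulVec_smul]
      exact mul_mem r.2 ((e p).1 hp i)

theorem IsLat.smul {k : ℕ} {P : Set (Fin 2 → Ls A)} (h : IsLat E k P) {r : Ls A} (hr : r ∈ E.R A)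
    {p : Fin 2 → Ls A} (hp : p ∈ P) : r • p ∈ P := h.sub.smul_mem ⟨r, hr⟩ hp

theorem csmul_eq {m : ℕ} (a : A) (p : Fin m → Ls A) : a • p = (HahnSeries.C a : Ls A) • p :=
  funext fun i => (C_mul a (p i)).symm

theorem IsLat.csmul {k : ℕ} {P : Set (Fin 2 → Ls A)} (h : IsLat E k P) (a : A)
    {p : Fin 2 → Ls A} (hp : p ∈ P) : a • p ∈ P := csmul_eq a p ▸ h.smul (C_R a) hp

theorem tw_le {f : A →ₐ[ℂ] B} {J : E.Ln} {P : Set (Fin 2 → Ls A)} {k : ℕ} {Q : Set (Fin 2 → Ls B)}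
    (hQ : IsLat E k Q) {a : Matrix (Fin 2) (Fin 2) (Ls B)} (h : ∀ j ∈ J, ∀ p ∈ P,
      a *ᵥ (fun i => lm (Algebra.ofId ℂ B) j * lm f (p i)) ∈ Q) : ∀ p ∈ tw f J P, a *ᵥ p ∈ Q := by
  intro p hp
  induction hp using Submodule.span_induction with
  | mem q hq =>
    obtain ⟨j, hj, p, hp, rfl⟩ := hq
    exact h j hj p hp
  | zero => rw [mulVec_zero]; exact hQ.sub.zero_mem
  | add p q _ _ h1 h2 => rw [mulVec_add]; exact hQ.sub.add_mem h1 h2
  | smul c p _ h1 => rw [csmul_eq, mulVec_smul]; exact hQ.smul (C_R c) h1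

theorem mem_tw (f : A →ₐ[ℂ] B) {J : E.Ln} {P : Set (Fin 2 → Ls A)} {j : Ls ℂ} (hj : j ∈ J)
    {p : Fin 2 → Ls A} (hp : p ∈ P) :
    (fun i => lm (Algebra.ofId ℂ B) j * lm f (p i)) ∈ tw f J P :=
  Submodule.subset_span ⟨j, hj, p, hp, rfl⟩

variable {d : ℕ} {X Y Z : Obj E d}

theorem glue_id (X : Obj E d) : ∀ p ∈ tw (AlgHom.id ℂ X.A.R) (1 : E.Ln) X.P,
    (1 : Matrix (Fin 2) (Fin 2) (Ls X.A.R)) *ᵥ p ∈ X.P :=
  tw_le X.lat fun j hj p hp => by
    obtain ⟨r, rfl⟩ := Submodule.mem_one.1 hj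
    rw [one_mulVec]
    exact X.lat.smul (lm_R _ r.2) hp

theorem pos_one (i j : Fin 2) : IsO ((1 : Matrix (Fin 2) (Fin 2) (Ls A)) i j) := by
  by_cases h : i = j
  · rw [h, one_apply_eq]; exact isO_one
  · rw [one_apply_ne h]; exact isO_zero

theorem det_comp (φ : Hom X Y) (ψ : Hom Y Z) : (ψ.a * φ.a.map (lm ψ.f)).det = 1 := by
  rw [det_mul, ψ.det, one_mul, lm_eq, ← RingHom.mapMatrix_apply, ← RingHom.map_det, φ.det, map_one]

theorem pos_comp (φ : Hom X Y) (ψ : Hom Y Z) (i j : Fin 2) : IsO ((ψ.a * φ.a.map (lm ψ.f)) i j) := by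
  rw [mul_apply, Fin.sum_univ_two]
  exact ((ψ.pos _ _).mul ((φ.pos _ _).lm _)).add ((ψ.pos _ _).mul ((φ.pos _ _).lm _))

theorem lm_mulVec (f : A →ₐ[ℂ] B) {m n : ℕ} (a : Matrix (Fin m) (Fin n) (Ls A)) (p : Fin n → Ls A) :
    (fun i => lm f ((a *ᵥ p) i)) = a.map (lm f) *ᵥ fun i => lm f (p i) :=
  funext fun i => RingHom.map_mulVec (lmH f) a p i

theorem glue_comp (φ : Hom X Y) (ψ : Hom Y Z) : ∀ p ∈ tw (ψ.f.comp φ.f) (φ.J * ψ.J) X.P,
    (ψ.a * φ.a.map (lm ψ.f)) *ᵥ p ∈ Z.P :=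
  tw_le Z.lat fun j hj p hp => by
    induction hj using Submodule.mul_induction_on' with
    | mem_mul_mem i hi j hj =>
      have h := ψ.glue _ (mem_tw ψ.f hj (φ.glue _ (mem_tw φ.f hi hp)))
      rw [← mulVec_mulVec]
      convert h using 2
      rw [show (fun c => lm (Algebra.ofId ℂ Z.A.R) j * lm ψ.f ((φ.a *ᵥ fun c =>
          lm (Algebra.ofId ℂ Y.A.R) i * lm φ.f (p c)) c)) = lm (Algebra.ofId ℂ Z.A.R) j •
          fun c => lm ψ.f ((φ.a *ᵥ fun c => lm (Algebra.ofId ℂ Y.A.R) i * lm φ.f (p c)) c) from rfl,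
        lm_mulVec, ← mulVec_smul]
      congr 1
      funext c
      rw [Pi.smul_apply, smul_eq_mul, ← lmH_apply ψ.f, map_mul, lmH_apply, lmH_apply, lm_of, lm_lm,
        ← lmH_apply _ (i * j), map_mul, lmH_apply, lmH_apply]
      ring
    | add i _ j _ h1 h2 =>
      convert Z.lat.sub.add_mem h1 h2 using 1
      rw [← mulVec_add]
      congr 1
      funext c
      rw [← lmH_apply _ (i + j), map_add, add_mul]
      rfl

theorem hJ_comp (φ : Hom X Y) (ψ : Hom Y Z) : (φ.J * ψ.J) ^ d = 1 := by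
  rw [mul_pow, φ.hJ, ψ.hJ, one_mul]

theorem map_one_lm (f : A →ₐ[ℂ] B) : (1 : Matrix (Fin 2) (Fin 2) (Ls A)).map (lm f) = 1 :=
  Matrix.map_one _ (map_zero (lmH f)) (map_one (lmH f))

theorem map_mul_lm (f : A →ₐ[ℂ] B) (a b : Matrix (Fin 2) (Fin 2) (Ls A)) :
    (a * b).map (lm f) = a.map (lm f) * b.map (lm f) := Matrix.map_mul (f := lmH f)

theorem mul_map_one (f : A →ₐ[ℂ] B) (a : Matrix (Fin 2) (Fin 2) (Ls B)) :
    a * (1 : Matrix (Fin 2) (Fin 2) (Ls A)).map (lm f) = a := by rw [map_one_lm, mul_one]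

theorem mul_map_assoc (f : A →ₐ[ℂ] B) (g : B →ₐ[ℂ] D) (a : Matrix (Fin 2) (Fin 2) (Ls A))
    (b : Matrix (Fin 2) (Fin 2) (Ls B)) (c : Matrix (Fin 2) (Fin 2) (Ls D)) :
    c * (b * a.map (lm f)).map (lm g) = c * b.map (lm g) * a.map (lm (g.comp f)) := by
  rw [map_mul_lm, mul_assoc]
  rfl

end

end Vale.Agent.P286E
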