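import Vale.Agent.P286.St.Alg
import Vale.Agent.P286.Loop

/-!
# Bundles of rank two on an elliptic curve and the canonical bundle of their moduli stack

`E` is the curve `y² = (x - e₁)(x - e₂)(x - e₃)` with the point `o` at infinity and the parameter
`t`, `x = t⁻²`.  A vector bundle `V` of rank two on `E × Spec A` with a trivialisation on the formal
neighbourhood of `o` is a lattice `P ⊆ A((t))²`: the finitely generated projective module of the
sections of `V` over the ring `R = A[x, y] ⊆ A((t))` of functions on `Spec A × (E - o)`.  The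
cohomology of `V` is that of the complex `P → A((t))² / A[[t]]²`.
-/

namespace Vale.Agent.P286E

open Matrix Vale.Agent.P286

noncomputable section

/-- Laurent series. -/
abbrev Ls (A : Type) [CommRing A] : Type := LaurentSeries A

/-- The power `t ^ n`. -/
def tp (A : Type) [CommRing A] (n : ℤ) : Ls A := HahnSeries.single n 1

/-- An elliptic curve, with the expansion of `y` at infinity. -/
structure EC where
  e : Fin 3 → ℂ
  inj : Function.Injective e
  sum : ∑ i, e i = 0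
  y : Ls ℂ
  sq : y ^ 2 = ∏ i, (tp ℂ (-2) - HahnSeries.C (e i))
  lead : y.coeff (-3) = 1

variable {A B : Type} [CommRing A] [Algebra ℂ A] [CommRing B] [Algebra ℂ B] {m : ℕ}

/-- Base change of Laurent series. -/
def lm (f : A →ₐ[ℂ] B) (z : Ls A) : Ls B := z.map f

/-- The ring `R = A[x, y]`. -/
def EC.R (E : EC) (A : Type) [CommRing A] [Algebra ℂ A] : Subring (Ls A) :=
  Subring.closure (Set.range HahnSeries.C ∪ {tp A (-2), lm (Algebra.ofId ℂ A) E.y})

/-- Power series. -/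
def IsO (z : Ls A) : Prop := ∀ n < 0, z.coeff n = 0

/-- `P` is a lattice (`P = g Rⁿ` is isomorphic to the image of the idempotent `h g` and spans
`A((t))²`) with `det P = t ^ k R`: the determinant of the bundle is `O(k o)`. -/
def IsLat (E : EC) (k : ℕ) (P : Set (Fin 2 → Ls A)) : Prop :=
  (∃ (n : ℕ) (g : Matrix (Fin 2) (Fin n) (Ls A)) (h : Matrix (Fin n) (Fin 2) (Ls A)), g * h = 1 ∧
    (∀ i j, (h * g) i j ∈ E.R A) ∧ ∀ p, p ∈ P ↔ ∀ i, (h *ᵥ p) i ∈ E.R A) ∧
  ∀ z, z ∈ Submodule.span A {w | ∃ p ∈ P, ∃ q ∈ P, w = p 0 * q 1 - p 1 * q 0} ↔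
    ∃ r ∈ E.R A, z = tp A k * r

/-- The class in `A((t))ᵐ / A[[t]]ᵐ`, in the basis `t ^ (-n-1) e_c`. -/
def pol (v : Fin m → Ls A) : ℕ × Fin m →₀ A :=
  Classical.epsilon fun w => ∀ i : ℕ × Fin m, w i = (v i.2).coeff (-i.1 - 1)

/-- The operator with the columns `pol (w i)`. -/
def top (w : ℕ × Fin m → Fin m → Ls A) : Module.End A (ℕ × Fin m →₀ A) :=
  Finsupp.linearCombination A fun i => pol (w i)

/-- `w` is a basis of `N` over `A` which defines a generator of the determinant line of the complex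
`N → A((t))ᵐ / A[[t]]ᵐ`. -/
def IsFr (N : Set (Fin m → Ls A)) (w : ℕ × Fin m → Fin m → Ls A) : Prop :=
  LinearIndependent A w ∧ (Submodule.span A (Set.range w) : Set _) = N ∧ FinRank (top w - 1)

/-- The matrix of trace zero with the coordinates `v`. -/
def sl {L : Type} [Ring L] (v : Fin 3 → L) : Matrix (Fin 2) (Fin 2) L := !![v 0, v 1; v 2, -v 0]

/-- The sections of the adjoint bundle. -/
def adL (P : Set (Fin 2 → Ls A)) : Set (Fin 3 → Ls A) := {v | ∀ p ∈ P, sl v *ᵥ p ∈ P}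

/-- The adjoint action. -/
def Ad (a : Matrix (Fin 2) (Fin 2) (Ls A)) (v : Fin 3 → Ls A) : Fin 3 → Ls A :=
  ![(a * sl v * a.adjugate) 0 0, (a * sl v * a.adjugate) 0 1, (a * sl v * a.adjugate) 1 0]

/-- Line bundles on `E`. -/
abbrev EC.Ln (E : EC) : Type := Submodule (E.R ℂ) (Ls ℂ)

/-- The tensor product of the bundle `f(P)` with the line bundle `J`. -/
def tw {E : EC} (f : A →ₐ[ℂ] B) (J : E.Ln) (P : Set (Fin 2 → Ls A)) : Set (Fin 2 → Ls B) :=
  Submodule.span B {q | ∃ j ∈ J, ∃ p ∈ P, q = fun i => lm (Algebra.ofId ℂ B) j * lm f (p i)}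

/-- The element `δ` with `t_w = δ • a_* f_* t_v`. -/
def dlt (f : A →ₐ[ℂ] B) (a : Matrix (Fin 2) (Fin 2) (Ls B)) (v : ℕ × Fin 3 → Fin 3 → Ls A)
    (w : ℕ × Fin 3 → Fin 3 → Ls B) : B :=
  fdet (top (fun i => Ad a (Pi.single i.2 (tp B (-i.1 - 1)))) *
    Classical.epsilon fun M : Module.End B (ℕ × Fin 3 →₀ B) => ∀ j,
      Finsupp.linearCombination B (fun i => Ad a fun c => lm f (v i c)) (M (Finsupp.single j 1)) = w j)

/-- Test objects of `Bun_{SL₂/μ_d}(E)` with a generator of `ω`. -/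
structure Obj (E : EC) (d : ℕ) : Type 1 where
  A : SmAlg
  k : Fin d
  P : Set (Fin 2 → Ls A.R)
  lat : IsLat E k P
  /-- the generator of `ω = det RΓ(ad V)` -/
  v : ℕ × Fin 3 → Fin 3 → Ls A.R
  fr : IsFr (adL P) v
  /-- the lines `det RΓ(V ⊗ J)` are trivial (true locally on `Spec A`) -/
  loc : k.1 = 0 → ∀ J : E.Ln, J ^ 2 = 1 → ∃ w, IsFr (tw (AlgHom.id ℂ A.R) J P) w

/-- Morphisms: `a` is an isomorphism from `f(V) ⊗ J` to `V'`, `J ^ d = O`. -/
@[ext]
structure Hom {E : EC} {d : ℕ} (X Y : Obj E d) : Type where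
  f : X.A.Hm Y.A
  J : E.Ln
  a : Matrix (Fin 2) (Fin 2) (Ls Y.A.R)
  hk : X.k = Y.k
  hJ : J ^ d = 1
  det : a.det = 1
  pos : ∀ i j, IsO (a i j)
  glue : ∀ p ∈ tw f J X.P, a *ᵥ p ∈ Y.P

end

end Vale.Agent.P286E
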